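import Vale.Agent.P286EK.Mor

/-!
# Scalar extension of DG algebras, weighted DG algebras
-/

set_option linter.all false

namespace Vale.Agent.P286E48

open TensorProduct DirectSum Vale.Agent.P286.H847 Vale.Agent.P286.H847.GD Vale.Agent.P286.H710
  Vale.Agent.P286EK

noncomputable section

section TA

variable (R : Type) [Ring R] [Algebra ℂ R] (A : DGA)

/-- The homogeneous parts of `R ⊗ A`. -/
def tg (m : ℤ) : Submodule ℂ (R ⊗[ℂ] A.R) :=
  Submodule.span ℂ {z | ∃ r a, a ∈ A.gr m ∧ z = r ⊗ₜ[ℂ] a}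

variable {R A}

theorem tmul_tg {m : ℤ} (r : R) {a : A.R} (h : a ∈ A.gr m) : r ⊗ₜ[ℂ] a ∈ tg R A m :=
  Submodule.subset_span ⟨r, a, h, rfl⟩

theorem tg_ind {m : ℤ} {Q : R ⊗[ℂ] A.R → Prop} (zero : Q 0)
    (tmul : ∀ r a, a ∈ A.gr m → Q (r ⊗ₜ[ℂ] a)) (add : ∀ x y, Q x → Q y → Q (x + y))
    {z : R ⊗[ℂ] A.R} (hz : z ∈ tg R A m) : Q z := by
  have key : ∀ c : ℂ, Q (c • z) := by
    induction hz using Submodule.span_induction with
    | mem x hx =>
      obtain ⟨r, a, ha, rfl⟩ := hx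
      exact fun c => tmul (c • r) a ha
    | zero => intro c; rw [smul_zero]; exact zero
    | add x y _ _ hx hy => intro c; rw [smul_add]; exact add _ _ (hx c) (hy c)
    | smul c x _ hx => intro c'; rw [smul_smul]; exact hx _
  simpa using key 1

theorem lT_tg {B : DGA} {m n : ℤ} (f : A.R →ₗ[ℂ] B.R) (hf : ∀ a ∈ A.gr m, f a ∈ B.gr n)
    {z : R ⊗[ℂ] A.R} (hz : z ∈ tg R A m) : f.lTensor R z ∈ tg R B n :=
  tg_ind (Q := fun z => f.lTensor R z ∈ tg R B n) (by rw [map_zero]; exact zero_mem _)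
    (fun r a ha => tmul_tg r (hf a ha)) (fun x y hx hy => by rw [map_add]; exact add_mem hx hy) hz

theorem lT_mem {B : DGA} {n : ℤ} {V : Type} [AddCommGroup V] [Module ℂ V] (f : V →ₗ[ℂ] B.R)
    (hf : ∀ a, f a ∈ B.gr n) (z : R ⊗[ℂ] V) : f.lTensor R z ∈ tg R B n := by
  induction z using TensorProduct.induction_on with
  | zero => rw [map_zero]; exact zero_mem _
  | tmul r a => exact tmul_tg r (hf a)
  | add x y hx hy => rw [map_add]; exact add_mem hx hy

theorem t_ind {Q : R ⊗[ℂ] A.R → Prop} (zero : Q 0)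
    (tmul : ∀ r m a, a ∈ A.gr m → Q (r ⊗ₜ[ℂ] a)) (add : ∀ x y, Q x → Q y → Q (x + y))
    (z : R ⊗[ℂ] A.R) : Q z := by
  induction z using TensorProduct.induction_on with
  | zero => exact zero
  | tmul r a =>
    induction a using A.ind with
    | zero => rw [tmul_zero]; exact zero
    | hom m a ha => exact tmul r m a ha
    | add x y hx hy => rw [tmul_add]; exact add _ _ hx hy
  | add x y hx hy => exact add _ _ hx hy

theorem lT_lT {X Y Z : Type} [AddCommGroup X] [Module ℂ X] [AddCommGroup Y] [Module ℂ Y]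
    [AddCommGroup Z] [Module ℂ Z] (f : X →ₗ[ℂ] Y) (g : Y →ₗ[ℂ] Z) (z : R ⊗[ℂ] X) :
    g.lTensor R (f.lTensor R z) = (g.comp f).lTensor R z := by
  rw [LinearMap.lTensor_comp, LinearMap.comp_apply]

variable (R A)

/-- The DG algebra `R ⊗ A`, with `R` in degree `0`. -/
abbrev TA : DGA where
  R := R ⊗[ℂ] A.R
  d := A.d.lTensor R
  gr := tg R A
  sg := Algebra.TensorProduct.map (AlgHom.id ℂ R) A.sg
  dd z := by
    rw [lT_lT, show A.d.comp A.d = 0 from LinearMap.ext A.dd, LinearMap.lTensor_zero,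
      LinearMap.zero_apply]
  dgr m z hz := lT_tg A.d (A.dgr m) hz
  sg_gr m z hz := tg_ind
    (Q := fun z => Algebra.TensorProduct.map (AlgHom.id ℂ R) A.sg z = (m.negOnePow : ℤ) • z)
    (by rw [map_zero, smul_zero])
    (fun r a ha => by
      rw [Algebra.TensorProduct.map_tmul, A.sg_gr m a ha, tmul_smul]; rfl)
    (fun x y hx hy => by rw [map_add, hx, hy, smul_add]) hz
  leib x y := by
    induction x using TensorProduct.induction_on with
    | zero => simp
    | add x x' hx hx' => simp only [add_mul, map_add, hx, hx']; abel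
    | tmul r a =>
      induction y using TensorProduct.induction_on with
      | zero => simp
      | add y y' hy hy' => simp only [mul_add, map_add, hy, hy']; abel
      | tmul r' a' =>
        simp only [Algebra.TensorProduct.tmul_mul_tmul, LinearMap.lTensor_tmul,
          Algebra.TensorProduct.map_tmul, AlgHom.id_apply, A.leib, tmul_add]
  mul_gr i j x y hx hy := tg_ind (Q := fun x => x * y ∈ tg R A (i + j))
    (by rw [zero_mul]; exact zero_mem _)
    (fun r a ha => tg_ind (Q := fun y => r ⊗ₜ[ℂ] a * y ∈ tg R A (i + j))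
      (by rw [mul_zero]; exact zero_mem _)
      (fun r' a' ha' => by
        rw [Algebra.TensorProduct.tmul_mul_tmul]
        exact tmul_tg _ (A.mul_gr i j a a' ha ha'))
      (fun x y hx hy => by rw [mul_add]; exact add_mem hx hy) hy)
    (fun x y hx hy => by rw [add_mul]; exact add_mem hx hy) hx
  one_gr := tmul_tg 1 A.one_gr
  int := by
    obtain ⟨P⟩ := Prj.nonempty (M := A.G) A.int
    refine Prj.internal (M := ⟨R ⊗[ℂ] A.R, 0, fun _ => rfl, tg R A, fun _ _ _ => zero_mem _⟩)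
      ⟨fun m => (P.P m).lTensor R, fun m z => lT_mem _ (P.mem m) z, fun m z hz => ?_,
        fun m n h z hz => ?_, eq_top_iff.2 fun z _ => ?_⟩
    · exact tg_ind (Q := fun z => (P.P m).lTensor R z = z) (map_zero _)
        (fun r a ha => congrArg (r ⊗ₜ[ℂ] ·) (P.eq m a ha))
        (fun x y hx hy => by rw [map_add, hx, hy]) hz
    · exact tg_ind (Q := fun z => (P.P n).lTensor R z = 0) (map_zero _)
        (fun r a ha => (congrArg (r ⊗ₜ[ℂ] ·) (P.ne m n h a ha)).trans (tmul_zero _ r))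
        (fun x y hx hy => by rw [map_add, hx, hy, add_zero]) hz
    · exact t_ind (Q := fun z => z ∈ ⨆ m, tg R A m) (zero_mem _)
        (fun r m a ha => Submodule.mem_iSup_of_mem m (tmul_tg r ha)) (fun _ _ => add_mem) z

variable {A} {B : DGA}

/-- The scalar extension of a homomorphism. -/
def tn (φ : NHom A B) : NHom (TA R A) (TA R B) where
  f := φ.f.lTensor R
  mul x y := by
    induction x using TensorProduct.induction_on with
    | zero => simp
    | add x x' hx hx' => simp only [add_mul, map_add, hx, hx']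
    | tmul r a =>
      induction y using TensorProduct.induction_on with
      | zero => simp
      | add y y' hy hy' => simp only [mul_add, map_add, hy, hy']
      | tmul r' a' => simp only [Algebra.TensorProduct.tmul_mul_tmul, LinearMap.lTensor_tmul, φ.mul]
  comm z := (lT_lT _ _ z).trans
    ((congrArg (fun g => LinearMap.lTensor R g z) (LinearMap.ext φ.comm)).trans (lT_lT _ _ z).symm)
  deg m z hz := lT_tg φ.f (φ.deg m) hz

variable {R}

theorem tn_tmul (φ : NHom A B) (r : R) (a : A.R) : (tn R φ).f (r ⊗ₜ[ℂ] a) = r ⊗ₜ[ℂ] φ.f a := rfl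

theorem tn_e (φ : NHom A B) : (tn R φ).e = (1 : R) ⊗ₜ[ℂ] φ.e := rfl

theorem morH_htpy {φ : NHom A B} (h : MorH φ) : ∃ (v : Hom B.G A.G) (s : A.R →ₗ[ℂ] A.R)
    (t : B.R →ₗ[ℂ] B.R), (∀ m, ∀ x ∈ A.gr m, s x ∈ A.gr (m - 1)) ∧
    (∀ m, ∀ x ∈ B.gr m, t x ∈ B.gr (m - 1)) ∧ (∀ x, A.d (s x) + s (A.d x) = x - v.f (φ.f x)) ∧
    ∀ x, B.d (t x) + t (B.d x) = φ.e * (x * φ.e) - φ.f (v.f x) := by
  have hl : ∀ p, (φ.L.comp φ.rm.r1).t.f ((φ.L.comp φ.rm.r1).t.f p) = (φ.L.comp φ.rm.r1).t.f p :=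
    fun p => by
      change φ.e * (φ.e * (p * φ.e) * φ.e) = φ.e * (p * φ.e)
      have e : φ.e * φ.e = φ.e := φ.e_mul 1
      rw [mul_assoc, mul_assoc, e, ← mul_assoc, e]
  obtain ⟨v, s, t, gs, gt, hs, ht⟩ := exists_htpy (Img.lift _ φ.hom φ.L_j) A.int
    (Img.internal hl B.int) ((Img.qis_lift hl _ _).2 h)
  refine ⟨v.comp (Img.proj _ hl), s, (Img.incl _).f.comp (t.comp (Img.proj _ hl).f), gs,
    fun m x hx => gt m _ ((Img.proj _ hl).deg m x hx), fun x => (hs x).trans ?_, fun x => ?_⟩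
  · exact congrArg (fun y => x - v.f y) (Subtype.ext (φ.L_j x).symm)
  · have h1 := congrArg Subtype.val (ht ((Img.proj _ hl).f x))
    rw [← (Img.proj _ hl).comm] at h1
    exact h1

/-- Scalar extension keeps the Morita condition. -/
theorem morH_tn (R : Type) [Ring R] [Algebra ℂ R] {φ : NHom A B} (h : MorH φ) :
    MorH (tn R φ) := by
  obtain ⟨v, s, t, gs, gt, hs, ht⟩ := morH_htpy h
  have e1 : ∀ z : R ⊗[ℂ] A.R, A.d.lTensor R (s.lTensor R z) + s.lTensor R (A.d.lTensor R z) =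
      z - v.f.lTensor R (φ.f.lTensor R z) := fun z => by
    induction z using TensorProduct.induction_on with
    | zero => simp
    | tmul r a => simp only [LinearMap.lTensor_tmul, ← tmul_add, hs, tmul_sub]
    | add x y hx hy => simp only [map_add]; rw [add_add_add_comm, hx, hy]; abel
  have e2 : ∀ z : R ⊗[ℂ] B.R, B.d.lTensor R (t.lTensor R z) + t.lTensor R (B.d.lTensor R z) =
      (1 : R) ⊗ₜ[ℂ] φ.e * (z * (1 : R) ⊗ₜ[ℂ] φ.e) - φ.f.lTensor R (v.f.lTensor R z) := fun z => by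
    induction z using TensorProduct.induction_on with
    | zero => simp
    | tmul r a =>
      simp only [LinearMap.lTensor_tmul, ← tmul_add, ht, tmul_sub,
        Algebra.TensorProduct.tmul_mul_tmul, one_mul, mul_one]
    | add x y hx hy => simp only [map_add, add_mul, mul_add]; rw [add_add_add_comm, hx, hy]; abel
  have e3 : ∀ z : R ⊗[ℂ] B.R, A.d.lTensor R (v.f.lTensor R z) = v.f.lTensor R (B.d.lTensor R z) :=
    fun z => (lT_lT _ _ z).trans ((congrArg (fun g => LinearMap.lTensor R g z)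
      (LinearMap.ext fun x => (v.comm x).symm)).trans (lT_lT _ _ z).symm)
  intro m
  refine ⟨?_, fun b hb hd => ⟨v.f.lTensor R b, lT_tg v.f (v.deg m) hb, ?_, t.lTensor R b,
    lT_tg t (gt m) hb, ?_⟩⟩
  · rintro a ha hd ⟨b, hb, e⟩
    refine ⟨s.lTensor R a + v.f.lTensor R b,
      add_mem (lT_tg s (gs m) ha) (lT_tg v.f (v.deg _) hb), ?_⟩
    have h1 := e1 a
    change A.d.lTensor R a = 0 at hd
    change B.d.lTensor R b = φ.f.lTensor R a at e
    rw [hd, map_zero, add_zero] at h1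
    change A.d.lTensor R _ = a
    rw [map_add, h1, e3, e, sub_add_cancel]
  · change B.d.lTensor R b = 0 at hd
    exact (e3 b).trans (by rw [hd, map_zero])
  · have h1 := e2 b
    change B.d.lTensor R b = 0 at hd
    rw [hd, map_zero, add_zero] at h1
    exact h1

end TA

/-! ### Weights -/

section Wt

variable {R R' : Type} [Ring R] [Algebra ℂ R] [Ring R'] [Algebra ℂ R']

/-- The elements of weight `k`: `E a - a E = k a`. -/
def wt (E : R) (k : ℤ) : Submodule ℂ R :=
  Module.End.eigenspace (LinearMap.mul ℂ R E - (LinearMap.mul ℂ R).flip E) (k : ℂ)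

theorem mem_wt {E a : R} {k : ℤ} : a ∈ wt E k ↔ E * a - a * E = (k : ℂ) • a :=
  Module.End.mem_eigenspace_iff

theorem wt_one (E : R) : (1 : R) ∈ wt E 0 := by
  rw [mem_wt, mul_one, one_mul, sub_self, Int.cast_zero, zero_smul]

theorem wt_E (E : R) : E ∈ wt E 0 := by rw [mem_wt, sub_self, Int.cast_zero, zero_smul]

theorem wt_mul {E a b : R} {k l : ℤ} (ha : a ∈ wt E k) (hb : b ∈ wt E l) : a * b ∈ wt E (k + l) := by
  rw [mem_wt] at ha hb ⊢
  rw [Int.cast_add, add_smul, ← smul_mul_assoc, ← mul_smul_comm, ← ha, ← hb]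
  noncomm_ring

theorem wt_map {E : R} {E' : R'} (f : R →ₗ[ℂ] R') (h : ∀ a, f (E * a - a * E) = E' * f a - f a * E')
    {k : ℤ} {a : R} (ha : a ∈ wt E k) : f a ∈ wt E' k := by
  rw [mem_wt] at ha ⊢
  rw [← h, ha, map_smul]

theorem wt_int {E : R} (h : ⨆ k, wt E k = ⊤) : IsInternal (wt E) :=
  isInternal_submodule_of_iSupIndep_of_iSup_eq_top
    ((Module.End.eigenspaces_iSupIndep _).comp Int.cast_injective) h

end Wt

/-- A DG algebra with a closed element `E` which defines integral weights and a closed element `q`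
of weight two. -/
structure WA : Type 1 where
  A : DGA
  E : A.R
  q : A.R
  E_gr : E ∈ A.gr 0
  dE : A.d E = 0
  q_gr : q ∈ A.gr 0
  dq : A.d q = 0
  q_wt : q ∈ wt E 2
  sup : ⨆ k, wt E k = ⊤

namespace WA

variable (W : WA)

theorem ind {Q : W.A.R → Prop} (zero : Q 0) (hom : ∀ k, ∀ x ∈ wt W.E k, Q x)
    (add : ∀ x y, Q x → Q y → Q (x + y)) (x : W.A.R) : Q x :=
  Submodule.iSup_induction (wt W.E) (motive := Q) (W.sup ▸ Submodule.mem_top) hom zero add

theorem sg_E : W.A.sg W.E = W.E := by rw [W.A.sg_gr 0 _ W.E_gr]; simp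

theorem sg_q : W.A.sg W.q = W.q := by rw [W.A.sg_gr 0 _ W.q_gr]; simp

theorem d_wt {k : ℤ} {a : W.A.R} (h : a ∈ wt W.E k) : W.A.d a ∈ wt W.E k :=
  wt_map W.A.d (fun a => by
    rw [map_sub, W.A.leib, W.A.leib, W.dE, W.sg_E, zero_mul, zero_add, mul_zero, add_zero]) h

theorem sg_wt {k : ℤ} {a : W.A.R} (h : a ∈ wt W.E k) : W.A.sg a ∈ wt W.E k :=
  wt_map W.A.sg.toLinearMap (fun a => by
    simp only [AlgHom.toLinearMap_apply, map_sub, map_mul, W.sg_E]) h

theorem prj_wt (P : Prj W.A.G) (m : ℤ) {k : ℤ} {a : W.A.R} (h : a ∈ wt W.E k) :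
    P.P m a ∈ wt W.E k := by
  refine wt_map (P.P m) (fun a => ?_) h
  induction a using W.A.ind with
  | zero => simp
  | hom n a ha =>
    have h1 : W.E * a - a * W.E ∈ W.A.gr n :=
      sub_mem (by simpa using W.A.mul_gr _ _ _ _ W.E_gr ha)
        (by simpa using W.A.mul_gr _ _ _ _ ha W.E_gr)
    by_cases hn : n = m
    · subst hn
      rw [P.eq _ _ h1, P.eq _ _ ha]
    · rw [P.ne _ _ hn _ h1, P.ne _ _ hn _ ha, mul_zero, zero_mul, sub_zero]
  | add x y hx hy =>
    rw [mul_add, add_mul, ← sub_add_sub_comm, map_add, hx, hy, map_add, mul_add, add_mul,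
      sub_add_sub_comm]

/-- Induction on elements which are homogeneous for the degree and the weight. -/
theorem ind2 {m : ℤ} {Q : W.A.R → Prop} (zero : Q 0)
    (hom : ∀ k, ∀ x ∈ wt W.E k, x ∈ W.A.gr m → Q x) (add : ∀ x y, Q x → Q y → Q (x + y))
    {x : W.A.R} (hx : x ∈ W.A.gr m) : Q x := by
  obtain ⟨P⟩ := Prj.nonempty (M := W.A.G) W.A.int
  rw [← P.eq m x hx]
  clear hx
  induction x using W.ind with
  | zero => rw [map_zero]; exact zero
  | hom k x hx => exact hom k _ (W.prj_wt P m hx) (P.mem m x)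
  | add x y hx hy => rw [map_add]; exact add _ _ hx hy

variable {S : Type} [Ring S] [Algebra ℂ S] (c : Sˣ)

/-- The linear map `a ↦ c ^ k ⊗ a` on the elements of weight `k`. -/
def cwL : W.A.R →ₗ[ℂ] S ⊗[ℂ] W.A.R :=
  (toModule ℂ ℤ _ fun k => (TensorProduct.mk ℂ S W.A.R ((c ^ k : Sˣ) : S)).comp
    (wt W.E k).subtype).comp
    (LinearEquiv.ofBijective (coeLinearMap (wt W.E)) (wt_int W.sup)).symm.toLinearMap

theorem cwL_wt {k : ℤ} {a : W.A.R} (h : a ∈ wt W.E k) :
    W.cwL c a = ((c ^ k : Sˣ) : S) ⊗ₜ[ℂ] a := by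
  have h1 : (LinearEquiv.ofBijective (coeLinearMap (wt W.E)) (wt_int W.sup)).symm a =
      lof ℂ ℤ (fun k => wt W.E k) k ⟨a, h⟩ := by
    rw [LinearEquiv.symm_apply_eq]
    exact (coeLinearMap_lof (wt W.E) k ⟨a, h⟩).symm
  rw [cwL, LinearMap.comp_apply, LinearEquiv.coe_coe, h1, toModule_lof]
  rfl

/-- The homomorphism `a ↦ c ^ k ⊗ a` on the elements of weight `k`. -/
def cw : W.A.R →ₐ[ℂ] S ⊗[ℂ] W.A.R :=
  AlgHom.ofLinearMap (W.cwL c) (by rw [W.cwL_wt c (wt_one _), zpow_zero]; rfl) fun a b => by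
    induction a using W.ind with
    | zero => simp
    | add x y hx hy => simp only [add_mul, map_add, hx, hy]
    | hom k a ha =>
      induction b using W.ind with
      | zero => simp
      | add x y hx hy => simp only [mul_add, map_add, hx, hy]
      | hom l b hb =>
        rw [W.cwL_wt c ha, W.cwL_wt c hb, W.cwL_wt c (wt_mul ha hb),
          Algebra.TensorProduct.tmul_mul_tmul, zpow_add, Units.val_mul]

theorem cw_wt {k : ℤ} {a : W.A.R} (h : a ∈ wt W.E k) :
    W.cw c a = ((c ^ k : Sˣ) : S) ⊗ₜ[ℂ] a := W.cwL_wt c h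

theorem cw_nat {W' : WA} (f : W.A.R →ₗ[ℂ] W'.A.R) (hf : ∀ k, ∀ a ∈ wt W.E k, f a ∈ wt W'.E k)
    (a : W.A.R) : W'.cw c (f a) = f.lTensor S (W.cw c a) := by
  induction a using W.ind with
  | zero => simp
  | add x y hx hy => simp only [map_add, hx, hy]
  | hom k a ha => rw [W.cw_wt c ha, W'.cw_wt c (hf k a ha), LinearMap.lTensor_tmul]

theorem cw_gr {m : ℤ} {a : W.A.R} (h : a ∈ W.A.gr m) : W.cw c a ∈ tg S W.A m :=
  W.ind2 (Q := fun a => W.cw c a ∈ tg S W.A m) (by rw [map_zero]; exact zero_mem _)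
    (fun k a ha hm => by rw [W.cw_wt c ha]; exact tmul_tg _ hm)
    (fun x y hx hy => by rw [map_add]; exact add_mem hx hy) h

end WA

/-- A homomorphism of weighted DG algebras, which need not preserve the unit. -/
structure WH (W W' : WA) where
  φ : NHom W.A W'.A
  E_l : φ.f W.E = W'.E * φ.e
  E_r : φ.f W.E = φ.e * W'.E
  q_l : φ.f W.q = W'.q * φ.e
  q_r : φ.f W.q = φ.e * W'.q

theorem WH.wt {W W' : WA} (g : WH W W') {k : ℤ} {a : W.A.R} (h : a ∈ wt W.E k) :
    g.φ.f a ∈ wt W'.E k :=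
  wt_map g.φ.f (fun a => by
    rw [map_sub, g.φ.mul, g.φ.mul]
    nth_rw 1 [g.E_l]
    rw [g.E_r, mul_assoc, g.φ.e_mul, ← mul_assoc, g.φ.mul_e]) h

/-- A unital homomorphism. -/
def WH.ofA {W W' : WA} (φ : AHom W.A W'.A) (hE : φ.f W.E = W'.E) (hq : φ.f W.q = W'.q) :
    WH W W' :=
  have e : φ.n.e = 1 := map_one φ.f
  ⟨φ.n, by rw [e, mul_one]; exact hE, by rw [e, one_mul]; exact hE, by rw [e, mul_one]; exact hq,
    by rw [e, one_mul]; exact hq⟩

end

end Vale.Agent.P286E48
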