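import Vale.Agent.P286E48.Ch

/-!
# Functoriality of the diagrams of chart algebras
-/

set_option linter.all false

namespace Vale.Agent.P286E48

open CategoryTheory TensorProduct Vale.Agent.P286.H847 Vale.Agent.P286.H847.GD
  Vale.Agent.P286EK Vale.Agent.P286E Vale.Agent.P286EU Vale.Agent.P286EX

noncomputable section

namespace WH

variable {W W' : WA} (g : WH W W')

theorem E_mul (a : W.A.R) : g.φ.f (W.E * a) = W'.E * g.φ.f a := by
  rw [g.φ.mul, g.E_l, mul_assoc, g.φ.e_mul]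

theorem mul_E (a : W.A.R) : g.φ.f (a * W.E) = g.φ.f a * W'.E := by
  rw [g.φ.mul, g.E_r, ← mul_assoc, g.φ.mul_e]

theorem q_mul (a : W.A.R) : g.φ.f (W.q * a) = W'.q * g.φ.f a := by
  rw [g.φ.mul, g.q_l, mul_assoc, g.φ.e_mul]

theorem mul_q (a : W.A.R) : g.φ.f (a * W.q) = g.φ.f a * W'.q := by
  rw [g.φ.mul, g.q_r, ← mul_assoc, g.φ.mul_e]

end WH

variable {I : Type} [SmallCategory I] {D : CD I} (V : VF D) (lam : ℂ) {W W' : WA} (g : WH W W')

theorem tn_l1 (i : I) (x : Dp V i) (y : Dp V i ⊗[ℂ] W.A.R) :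
    (tn (Dp V i) g.φ).f (x ⊗ₜ[ℂ] 1 * y) = x ⊗ₜ[ℂ] 1 * (tn (Dp V i) g.φ).f y :=
  tn_l g.φ x (fun a => by rw [one_mul, one_mul]) y

theorem tn_r1 (i : I) (x : Dp V i) (y : Dp V i ⊗[ℂ] W.A.R) :
    (tn (Dp V i) g.φ).f (y * x ⊗ₜ[ℂ] 1) = (tn (Dp V i) g.φ).f y * x ⊗ₜ[ℂ] 1 :=
  tn_r g.φ x (fun a => by rw [mul_one, mul_one]) y

theorem tn_tl {i j : I} (α : i ⟶ j) (x : Dp V i) (y : Dp V j ⊗[ℂ] W.A.R) :
    (tn (Dp V j) g.φ).f (tl V lam W α x * y) = tl V lam W' α x * (tn (Dp V j) g.φ).f y := by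
  induction x using Dp.ind generalizing y with
  | h0 z => rw [tl_fo, tl_fo]; exact tn_l1 V g j _ y
  | h1 =>
    rw [tl_pp, tl_pp, tp_eq, tp_eq, add_mul, sub_mul, add_mul, sub_mul, map_add, map_sub, tn_l1,
      tn_l1, tn_l g.φ _ g.E_mul]
  | add x x' hx hx' => rw [map_add, map_add, add_mul, add_mul, map_add, hx, hx']
  | mul x x' hx hx' => rw [map_mul (tl V lam W α), map_mul (tl V lam W' α), mul_assoc, mul_assoc, hx, hx']

/-- The homomorphism of the diagrams of chart algebras. -/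
def Ch.map : DHom (Ch V lam W) (Ch V lam W') where
  φ i := tn (Dp V i) g.φ
  nat {i j} α z := by
    change ta V lam W' α ((tn (Dp V i) g.φ).f z) = (tn (Dp V j) g.φ).f (ta V lam W α z)
    induction z using TensorProduct.induction_on with
    | zero => rw [map_zero, map_zero, map_zero, map_zero]
    | add x y hx hy => rw [map_add, map_add, map_add, map_add, hx, hy]
    | tmul x a =>
      rw [ta_tmul, tn_tl, tn_tmul, ta_tmul, W.cw_nat _ g.φ.f fun _ _ => g.wt]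
      rfl

theorem Ch.map_φ (i : I) : (Ch.map V lam g).φ i = tn (Dp V i) g.φ := rfl

theorem Ch.map_tmul (i : I) (x : Dp V i) (a : W.A.R) :
    ((Ch.map V lam g).φ i).f (x ⊗ₜ[ℂ] a) = x ⊗ₜ[ℂ] g.φ.f a := rfl

theorem Ch.map_e (i : I) : ((Ch.map V lam g).φ i).e = (1 : Dp V i) ⊗ₜ[ℂ] g.φ.e := rfl

theorem Ch.map_morH (h : MorH g.φ) (i : I) : MorH ((Ch.map V lam g).φ i) := morH_tn _ h

theorem tn_F_l (i : I) (y : Dp V i ⊗[ℂ] W.A.R) :
    (tn (Dp V i) g.φ).f ((chF V W i).x * y) = (chF V W' i).x * (tn (Dp V i) g.φ).f y := by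
  rw [chF_x, chF_x, sub_mul, sub_mul, map_sub, tn_l g.φ _ g.q_mul, fz_apply, fz_apply, tn_l1]

theorem tn_F_r (i : I) (y : Dp V i ⊗[ℂ] W.A.R) :
    (tn (Dp V i) g.φ).f (y * (chF V W i).x) = (tn (Dp V i) g.φ).f y * (chF V W' i).x := by
  rw [chF_x, chF_x, mul_sub, mul_sub, map_sub, tn_r g.φ _ g.mul_q, fz_apply, fz_apply, tn_r1]

/-- The homomorphism of the diagrams of twisted matrix algebras. -/
def TW.map : DHom (TW V lam W) (TW V lam W') :=
  (Ch.map V lam g).tw (chT V lam W) (chT V lam W') (tn_F_l V g) (tn_F_r V g)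
    (fun {_ j} _ => tn_l1 V g j _) fun {_ j} _ => tn_r1 V g j _

theorem TW.map_φ (i : I) : (TW.map V lam g).φ i =
    (tn (Dp V i) g.φ).tw1 (chF V W i) (chF V W' i) (tn_F_l V g i) (tn_F_r V g i) := rfl

theorem TW.map_m (i : I) (a : (TwA (chF V W i)).R) (k l : Fin 2) :
    TwA.m (F := chF V W' i) (((TW.map V lam g).φ i).f a) k l =
      g.φ.f.lTensor (Dp V i) (TwA.m a k l) := rfl

theorem TW.map_sc (i : I) (a : Dp V i ⊗[ℂ] W.A.R) : ((TW.map V lam g).φ i).f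
    (TwA.sc (chF V W i) a) = TwA.sc (chF V W' i) (g.φ.f.lTensor (Dp V i) a) :=
  (tn (Dp V i) g.φ).tw1_sc (tn_F_l V g i) (tn_F_r V g i) a

theorem TW.map_e (i : I) :
    ((TW.map V lam g).φ i).e = TwA.sc (chF V W' i) ((1 : Dp V i) ⊗ₜ[ℂ] g.φ.e) :=
  (tn (Dp V i) g.φ).tw1_e (tn_F_l V g i) (tn_F_r V g i)

theorem TW.map_morH (h : MorH g.φ) (i : I) : MorH ((TW.map V lam g).φ i) :=
  MorH.tw1 (tn (Dp V i) g.φ) (tn_F_l V g i) (tn_F_r V g i) (morH_tn _ h)

theorem TW.map_1 (h1 : g.φ.e = 1) (i : I) : ((TW.map V lam g).φ i).f 1 = 1 :=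
  (TW.map_e V lam g i).trans (by rw [h1]; exact map_one _)

variable (xd : XD D)

theorem Ch.map_over : (Ch.map xd.vfd lam g).Over (chB lam W xd) (chB lam W' xd) :=
  ⟨fun i z => (congrArg _ (one_mul _).symm).trans (tn_r1 xd.vfd g i (fo xd.vfd i z) 1),
    fun i z => (congrArg _ (mul_one _).symm).trans (tn_l1 xd.vfd g i (fo xd.vfd i z) 1)⟩

theorem TW.map_over : (TW.map xd.vfd lam g).Over (twB lam W xd) (twB lam W' xd) :=
  (Ch.map_over lam g xd).tw _ _ _ _ _ _ _ _ _ _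

/-- The Morita theorem for the twisted chart algebras. -/
theorem TW.eqc (h : MorH g.φ) (hg : ∀ i, GenE ((TW.map xd.vfd lam g).φ i).e)
    (hc : ∀ M, Cart (twB lam W xd) ((TW.map xd.vfd lam g).xi M) → Cart (twB lam W' xd) M) :
    EQV (wc (twB lam W xd)) (wc (twB lam W' xd)) :=
  (TW.map xd.vfd lam g).eqc (TW.map_morH _ lam g h) hg (TW.map_over lam g xd) hc

/-- The Morita theorem, with the reflection of quasi-isomorphisms as a hypothesis. -/
theorem TW.eqc' (h : MorH g.φ) (hg : ∀ ⦃X Y : P286.H353.Z0 (mdc (TW xd.vfd lam W'))⦄ (u : X ⟶ Y),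
      mqis (TW xd.vfd lam W) ((TW.map xd.vfd lam g).Xi.z0.map u) → mqis (TW xd.vfd lam W') u)
    (hc : ∀ M, Cart (twB lam W xd) ((TW.map xd.vfd lam g).xi M) → Cart (twB lam W' xd) M) :
    EQV (wc (twB lam W xd)) (wc (twB lam W' xd)) :=
  (TW.map xd.vfd lam g).eqc' (TW.map_morH _ lam g h) hg (TW.map_over lam g xd) hc

/-- Unital homomorphisms with the Morita condition induce equivalences. -/
theorem TW.eqv (h1 : g.φ.e = 1) (h : MorH g.φ) : EQV (wc (twB lam W xd)) (wc (twB lam W' xd)) :=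
  TW.eqc lam g xd h (fun i => by rw [NHom.e, TW.map_1 _ lam g h1]; exact genE_one _)
    fun M => ((TW.map xd.vfd lam g).cart_xi_one (TW.map_1 _ lam g h1)
      (TW.map_over lam g xd) M).1

/-- Unital quasi-isomorphisms induce equivalences. -/
theorem TW.eqv_qis (φ : AHom W.A W'.A) (hE : φ.f W.E = W'.E) (hq : φ.f W.q = W'.q)
    (h : Qis φ.n.hom) : EQV (wc (twB lam W xd)) (wc (twB lam W' xd)) :=
  TW.eqv lam (WH.ofA φ hE hq) xd (map_one φ.f) (morH_of_qis _ (map_one φ.f) h)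

/-- The same for the chart algebras. -/
theorem Ch.eqv (h1 : g.φ.e = 1) (h : MorH g.φ) : EQV (wc (chB lam W xd)) (wc (chB lam W' xd)) :=
  have e : ∀ i, ((Ch.map xd.vfd lam g).φ i).f 1 = 1 := fun i =>
    (Ch.map_e _ lam g i).trans (by rw [h1]; rfl)
  (Ch.map xd.vfd lam g).eqc (Ch.map_morH _ lam g h)
    (fun i => by rw [NHom.e, e]; exact genE_one _) (Ch.map_over lam g xd)
    fun M => ((Ch.map xd.vfd lam g).cart_xi_one e (Ch.map_over lam g xd) M).1

end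

end Vale.Agent.P286E48
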