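import Vale.Agent.P286E48.Wa
import Vale.Agent.P286EI.DW
import Vale.Agent.P286EK.Twq
import Vale.Agent.P286EA2.Rd

/-!
# The diagram of chart algebras of a weighted DG algebra
-/

set_option linter.all false

namespace Vale.Agent.P286E48

open CategoryTheory TensorProduct Vale.Agent.P286.H847 Vale.Agent.P286.H847.GD
  Vale.Agent.P286EK Vale.Agent.P286E Vale.Agent.P286EU Vale.Agent.P286EX
open Vale.Agent.P286EI (DO)

noncomputable section

theorem der_zpow {B : Type} [CommRing B] [Algebra ℂ B] (δ : Derivation ℂ B B) (u : Bˣ) {l : B}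
    (h : u * l = δ u) (k : ℤ) : δ ((u ^ k : Bˣ) : B) = (k : ℂ) • (((u ^ k : Bˣ) : B) * l) := by
  induction k using Int.induction_on with
  | zero => simp
  | succ k ih =>
    rw [zpow_add_one, Units.val_mul, Derivation.leibniz, ih, ← h]
    simp only [smul_eq_mul]
    simp only [Algebra.smul_def, Int.cast_add, Int.cast_one, map_add, map_one]
    ring
  | pred k ih =>
    have e : ((u ^ (-(k : ℤ)) : Bˣ) : B) = ((u ^ (-(k : ℤ) - 1) : Bˣ) : B) * u := by
      rw [← Units.val_mul, ← zpow_add_one, sub_add_cancel]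
    rw [e, Derivation.leibniz, ← h] at ih
    refine u.isUnit.mul_left_cancel ?_
    simp only [smul_eq_mul] at ih
    simp only [Algebra.smul_def, Int.cast_sub, Int.cast_one, map_sub, map_one] at ih ⊢
    linear_combination ih

section Tn

variable {R : Type} [Ring R] [Algebra ℂ R] {A B : DGA} (φ : NHom A B)

theorem tn_l (r : R) {b : A.R} {b' : B.R} (h : ∀ a, φ.f (b * a) = b' * φ.f a) (y : R ⊗[ℂ] A.R) :
    (tn R φ).f (r ⊗ₜ[ℂ] b * y) = r ⊗ₜ[ℂ] b' * (tn R φ).f y := by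
  induction y using TensorProduct.induction_on with
  | zero => simp
  | tmul s a =>
    rw [Algebra.TensorProduct.tmul_mul_tmul]
    exact (congrArg ((r * s) ⊗ₜ[ℂ] ·) (h a)).trans (Algebra.TensorProduct.tmul_mul_tmul ..).symm
  | add x y hx hy => rw [mul_add, map_add, map_add, hx, hy, mul_add]

theorem tn_r (r : R) {b : A.R} {b' : B.R} (h : ∀ a, φ.f (a * b) = φ.f a * b') (y : R ⊗[ℂ] A.R) :
    (tn R φ).f (y * r ⊗ₜ[ℂ] b) = (tn R φ).f y * r ⊗ₜ[ℂ] b' := by
  induction y using TensorProduct.induction_on with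
  | zero => simp
  | tmul s a =>
    rw [Algebra.TensorProduct.tmul_mul_tmul]
    exact (congrArg ((s * r) ⊗ₜ[ℂ] ·) (h a)).trans (Algebra.TensorProduct.tmul_mul_tmul ..).symm
  | add x y hx hy => rw [add_mul, map_add, map_add, hx, hy, add_mul]

end Tn

variable {I : Type} [SmallCategory I] {D : CD I} (V : VF D) (lam : ℂ) (W : WA)

/-- The differential operators on the chart. -/
abbrev Dp (i : I) : Type := DO fun _ : Unit => V.pd i

/-- The functions. -/
def fo (i : I) : D.C i →ₐ[ℂ] Dp V i := DO.of _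

/-- The vector field. -/
def pp (i : I) : Dp V i := DO.D _ ()

theorem pp_fo (i : I) (z : D.C i) : pp V i * fo V i z = fo V i z * pp V i + fo V i (V.pd i z) :=
  DO.D_of () z

/-- The unit `c`. -/
def cu {i j : I} (α : i ⟶ j) : (D.C j)ˣ := (D.c_unit α).unit

theorem cu_val {i j : I} (α : i ⟶ j) : ((cu (D := D) α : (D.C j)ˣ) : D.C j) = D.c α := rfl

theorem cu_id (i : I) : cu (D := D) (𝟙 i) = 1 := Units.ext (D.c_id i)

theorem cu_comp {i j k : I} (α : i ⟶ j) (β : j ⟶ k) :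
    cu (D := D) (α ≫ β) = Units.map (D.κ β).toMonoidHom (cu α) * cu β := Units.ext (D.c_comp α β)

theorem cu_zpow {i j k : I} (α : i ⟶ j) (β : j ⟶ k) (n : ℤ) :
    ((cu (α ≫ β) ^ n : (D.C k)ˣ) : D.C k) =
      D.κ β ((cu α ^ n : (D.C j)ˣ) : D.C j) * ((cu β ^ n : (D.C k)ˣ) : D.C k) := by
  rw [cu_comp, mul_zpow, ← map_zpow]
  rfl

/-- The inverse of `c`. -/
def ci {i j : I} (α : i ⟶ j) : D.C j := ((cu α)⁻¹ : (D.C j)ˣ)

theorem ci_mul {i j : I} (α : i ⟶ j) : ci α * D.c α = 1 := (cu α).inv_mul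

theorem ci_id (i : I) : ci (D := D) (𝟙 i) = 1 := by rw [ci, cu_id, inv_one, Units.val_one]

theorem ci_comp {i j k : I} (α : i ⟶ j) (β : j ⟶ k) : ci (α ≫ β) = D.κ β (ci α) * ci β := by
  have h := cu_zpow (D := D) α β (-1)
  rwa [zpow_neg_one, zpow_neg_one, zpow_neg_one] at h

/-- The unit `c`, as an operator. -/
def cD {i j : I} (α : i ⟶ j) : (Dp V j)ˣ := Units.map (fo V j).toMonoidHom (cu α)

theorem cD_zpow {i j : I} (α : i ⟶ j) (n : ℤ) :
    ((cD V α ^ n : (Dp V j)ˣ) : Dp V j) = fo V j ((cu α ^ n : (D.C j)ˣ) : D.C j) := by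
  rw [cD, ← map_zpow]
  rfl

/-- The functions in the chart algebra. -/
def fz (i : I) : D.C i →ₐ[ℂ] Dp V i ⊗[ℂ] W.A.R :=
  (Algebra.TensorProduct.includeLeft : Dp V i →ₐ[ℂ] _).comp (fo V i)

theorem fz_apply (i : I) (z : D.C i) : fz V W i z = fo V i z ⊗ₜ[ℂ] 1 := rfl

theorem fz_mul (i : I) (z : D.C i) (x : Dp V i) (a : W.A.R) :
    fz V W i z * x ⊗ₜ[ℂ] a = (fo V i z * x) ⊗ₜ[ℂ] a := by
  rw [fz_apply, Algebra.TensorProduct.tmul_mul_tmul, one_mul]

theorem fz_comm (i : I) (z w : D.C i) (a : W.A.R) :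
    fz V W i z * fo V i w ⊗ₜ[ℂ] a = fo V i w ⊗ₜ[ℂ] a * fz V W i z := by
  rw [fz_apply, Algebra.TensorProduct.tmul_mul_tmul, Algebra.TensorProduct.tmul_mul_tmul, one_mul,
    mul_one, ← map_mul, ← map_mul, mul_comm]

/-- The image `c⁻¹ (∂ - (c'/c) E + lam r'/r)` of the vector field. -/
def tp {i j : I} (α : i ⟶ j) : Dp V j ⊗[ℂ] W.A.R :=
  fz V W j (ci α) * (pp V j ⊗ₜ[ℂ] 1 - fo V j (V.lc α) ⊗ₜ[ℂ] W.E + fz V W j (lam • V.lr α))

theorem tp_def {i j : I} (α : i ⟶ j) : tp V lam W α = fz V W j (ci α) *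
    (pp V j ⊗ₜ[ℂ] 1 - fo V j (V.lc α) ⊗ₜ[ℂ] W.E + fz V W j (lam • V.lr α)) := rfl

theorem tp_eq {i j : I} (α : i ⟶ j) : tp V lam W α = (fo V j (ci α) * pp V j) ⊗ₜ[ℂ] 1 -
    fo V j (ci α * V.lc α) ⊗ₜ[ℂ] W.E + fo V j (ci α * lam • V.lr α) ⊗ₜ[ℂ] 1 := by
  rw [tp, mul_add, mul_sub, fz_mul, fz_mul, ← map_mul, ← map_mul, fz_apply]

theorem tp_mul {i j : I} (α : i ⟶ j) (z : D.C j) {k : ℤ} {a : W.A.R} (h : a ∈ wt W.E k) :
    tp V lam W α * fo V j z ⊗ₜ[ℂ] a = fo V j z ⊗ₜ[ℂ] a * tp V lam W α +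
      fo V j (ci α * (V.pd j z - (k : ℂ) • (z * V.lc α))) ⊗ₜ[ℂ] a := by
  have e : W.E * a = a * W.E + (k : ℂ) • a := by rw [← mem_wt.1 h, add_sub_cancel]
  simp only [tp_eq, add_mul, sub_mul, mul_add, mul_sub, Algebra.TensorProduct.tmul_mul_tmul,
    one_mul, mul_one, mul_assoc, pp_fo, e, tmul_add, add_tmul, sub_tmul, map_sub, tmul_smul,
    mul_smul_comm, map_smul, smul_mul_assoc, ← smul_tmul']
  simp only [← mul_assoc, ← map_mul]
  rw [mul_comm z (ci α), mul_right_comm (ci α) z, mul_right_comm (ci α) z]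
  abel

/-- The transition map on the differential operators. -/
def tl {i j : I} (α : i ⟶ j) : Dp V i →ₐ[ℂ] Dp V j ⊗[ℂ] W.A.R :=
  DO.lift ((fz V W j).comp (D.κ α)) (fun _ => tp V lam W α) (fun _ _ => rfl) fun _ z =>
    (tp_mul V lam W α (D.κ α z) (wt_one _)).trans (by
      rw [V.pd_κ, Int.cast_zero, zero_smul, sub_zero, ← mul_assoc, ci_mul, one_mul]; rfl)

theorem tl_fo {i j : I} (α : i ⟶ j) (z : D.C i) :
    tl V lam W α (fo V i z) = fz V W j (D.κ α z) := DO.lift_of _ _ _ _ z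

theorem tl_pp {i j : I} (α : i ⟶ j) : tl V lam W α (pp V i) = tp V lam W α := DO.lift_D _ _ _ _ ()

theorem Dp.ind {i : I} {P : Dp V i → Prop} (h0 : ∀ z, P (fo V i z)) (h1 : P (pp V i))
    (add : ∀ x y, P x → P y → P (x + y)) (mul : ∀ x y, P x → P y → P (x * y)) (x : Dp V i) : P x :=
  DO.ind h0 (fun _ => h1) add mul x

theorem tl_cw {i j : I} (α : i ⟶ j) (x : Dp V i) (a : W.A.R) :
    Commute (tl V lam W α x) (W.cw (cD V α) a) := by
  induction a using W.ind with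
  | zero => rw [map_zero]; exact Commute.zero_right _
  | add a b ha hb => rw [map_add]; exact ha.add_right hb
  | hom k a ha =>
    rw [W.cw_wt _ ha, cD_zpow]
    induction x using Dp.ind with
    | h0 z => rw [tl_fo]; exact fz_comm V W j _ _ a
    | h1 =>
      rw [tl_pp]
      refine (tp_mul V lam W α _ ha).trans ?_
      rw [der_zpow (V.pd j) (cu α) (V.mul_lc α), sub_self, mul_zero, map_zero, zero_tmul, add_zero]
    | add x y hx hy => rw [map_add]; exact hx.add_left hy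
    | mul x y hx hy => rw [map_mul]; exact hx.mul_left hy

/-- The transition map. -/
def ta {i j : I} (α : i ⟶ j) : Dp V i ⊗[ℂ] W.A.R →ₐ[ℂ] Dp V j ⊗[ℂ] W.A.R :=
  Algebra.TensorProduct.lift (tl V lam W α) (W.cw (cD V α)) (tl_cw V lam W α)

theorem ta_tmul {i j : I} (α : i ⟶ j) (x : Dp V i) (a : W.A.R) :
    ta V lam W α (x ⊗ₜ[ℂ] a) = tl V lam W α x * W.cw (cD V α) a := rfl

theorem ta_fo {i j : I} (α : i ⟶ j) (z : D.C i) {k : ℤ} {a : W.A.R} (h : a ∈ wt W.E k) :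
    ta V lam W α (fo V i z ⊗ₜ[ℂ] a) =
      fo V j (D.κ α z * ((cu α ^ k : (D.C j)ˣ) : D.C j)) ⊗ₜ[ℂ] a := by
  rw [ta_tmul, tl_fo, W.cw_wt _ h, cD_zpow, fz_mul, map_mul]

theorem ta_one {i j : I} (α : i ⟶ j) {k : ℤ} {a : W.A.R} (h : a ∈ wt W.E k) :
    ta V lam W α (1 ⊗ₜ[ℂ] a) = fo V j ((cu α ^ k : (D.C j)ˣ) : D.C j) ⊗ₜ[ℂ] a := by
  rw [ta_tmul, map_one, one_mul, W.cw_wt _ h, cD_zpow]

theorem ta_left {i j : I} (α : i ⟶ j) (x : Dp V i) :
    ta V lam W α (x ⊗ₜ[ℂ] 1) = tl V lam W α x := by rw [ta_tmul, map_one, mul_one]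

theorem ta_fz {i j : I} (α : i ⟶ j) (z : D.C i) :
    ta V lam W α (fz V W i z) = fz V W j (D.κ α z) := (ta_left V lam W α _).trans (tl_fo V lam W α z)

theorem ta_pp {i j : I} (α : i ⟶ j) : ta V lam W α (pp V i ⊗ₜ[ℂ] 1) = tp V lam W α :=
  (ta_left V lam W α _).trans (tl_pp V lam W α)

theorem ta_fo0 {i j : I} (α : i ⟶ j) (z : D.C i) {a : W.A.R} (h : a ∈ wt W.E 0) :
    ta V lam W α (fo V i z ⊗ₜ[ℂ] a) = fo V j (D.κ α z) ⊗ₜ[ℂ] a := by
  rw [ta_fo V lam W α z h, zpow_zero, Units.val_one, mul_one]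

/-- Homomorphisms out of the chart algebra are determined by the generators. -/
theorem ch_ext {i : I} {B : Type} [Ring B] [Algebra ℂ B] {φ ψ : Dp V i ⊗[ℂ] W.A.R →ₐ[ℂ] B}
    (h0 : ∀ z, φ (fz V W i z) = ψ (fz V W i z)) (h1 : φ (pp V i ⊗ₜ[ℂ] 1) = ψ (pp V i ⊗ₜ[ℂ] 1))
    (h2 : ∀ k, ∀ a ∈ wt W.E k, φ (1 ⊗ₜ[ℂ] a) = ψ (1 ⊗ₜ[ℂ] a)) : φ = ψ :=
  Algebra.TensorProduct.ext (DO.hom_ext h0 fun _ => h1) (AlgHom.ext fun a => by
    induction a using W.ind with
    | zero => rw [map_zero, map_zero]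
    | add a b ha hb => rw [map_add, map_add, ha, hb]
    | hom k a ha => exact h2 k a ha)

theorem ta_id (i : I) : ta V lam W (𝟙 i) = AlgHom.id ℂ _ :=
  ch_ext V W (fun z => by rw [ta_fz, D.κ_id]; rfl)
    (by
      rw [ta_pp, tp, ci_id, map_one, one_mul, V.lr_one _ (D.r_id i),
        V.lc_zero _ (by rw [D.c_id, Derivation.map_one_eq_zero]), smul_zero, map_zero, map_zero,
        zero_tmul, sub_zero, add_zero]
      rfl)
    fun k a ha => by rw [ta_one V lam W _ ha, cu_id, one_zpow, Units.val_one, map_one]; rfl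

theorem ta_comp {i j k : I} (α : i ⟶ j) (β : j ⟶ k) :
    ta V lam W (α ≫ β) = (ta V lam W β).comp (ta V lam W α) :=
  ch_ext V W (fun z => by rw [AlgHom.comp_apply, ta_fz, ta_fz, ta_fz, D.κ_comp])
    (by
      have h := ci_mul (D := D) β
      have e1 : ci (α ≫ β) * V.lc (α ≫ β) =
          D.κ β (ci α) * (ci β * V.lc β) + D.κ β (ci α) * D.κ β (V.lc α) := by
        rw [ci_comp, V.lc_comp]
        linear_combination D.κ β (ci α) * D.κ β (V.lc α) * h
      have e2 : ci (α ≫ β) * lam • V.lr (α ≫ β) =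
          D.κ β (ci α) * (ci β * lam • V.lr β) + D.κ β (ci α) * D.κ β (lam • V.lr α) := by
        rw [ci_comp, V.lr_comp, map_smul]
        simp only [Algebra.smul_def]
        linear_combination D.κ β (ci α) * algebraMap ℂ _ lam * D.κ β (V.lr α) * h
      rw [AlgHom.comp_apply, ta_pp, ta_pp, tp_def V lam W α, map_mul, map_add, map_sub, ta_fz, ta_fz,
        ta_pp, ta_fo0 V lam W β _ (wt_E _), tp_eq, tp_eq, e1, e2, ci_comp, fz_apply V W k (D.κ β (lam • _))]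
      simp only [mul_add, mul_sub, fz_mul, map_add, map_mul, add_tmul, mul_assoc]
      abel)
    fun n a ha => by
      rw [AlgHom.comp_apply, ta_one V lam W _ ha, ta_one V lam W _ ha, ta_fo V lam W _ _ ha, cu_zpow]

theorem tl_cl {i j : I} (α : i ⟶ j) (x : Dp V i) : tl V lam W α x ∈ tg (Dp V j) W.A 0 ∧
    (TA (Dp V j) W.A).d (tl V lam W α x) = 0 := by
  have h1 : ∀ y : Dp V j, (TA (Dp V j) W.A).d (y ⊗ₜ[ℂ] 1) = 0 := fun y =>
    (congrArg (y ⊗ₜ[ℂ] ·) W.A.d_one).trans (tmul_zero _ y)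
  induction x using Dp.ind with
  | h0 z => rw [tl_fo]; exact ⟨tmul_tg _ W.A.one_gr, h1 _⟩
  | h1 =>
    rw [tl_pp, tp_eq]
    refine ⟨add_mem (sub_mem (tmul_tg _ W.A.one_gr) (tmul_tg _ W.E_gr)) (tmul_tg _ W.A.one_gr), ?_⟩
    rw [map_add, map_sub, h1, h1, LinearMap.lTensor_tmul, W.dE, tmul_zero, sub_zero, add_zero]
  | add x y hx hy => rw [map_add, map_add, hx.2, hy.2, add_zero]; exact ⟨add_mem hx.1 hy.1, rfl⟩
  | mul x y hx hy =>
    rw [map_mul, (TA (Dp V j) W.A).leib, hx.2, hy.2, zero_mul, mul_zero, add_zero]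
    exact ⟨(TA (Dp V j) W.A).mul_gr 0 0 _ _ hx.1 hy.1, rfl⟩

/-- The diagram of chart algebras `D(C i) ⊗ A`. -/
abbrev Ch : DD I where
  A i := TA (Dp V i) W.A
  τ {i j} α :=
    { f := ta V lam W α
      comm := fun z => by
        induction z using TensorProduct.induction_on with
        | zero => simp
        | add x y hx hy => simp only [map_add, hx, hy]
        | tmul x a =>
          rw [LinearMap.lTensor_tmul, ta_tmul, ta_tmul, (TA (Dp V j) W.A).leib,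
            (tl_cl V lam W α x).2, zero_mul, zero_add, sg_zero (A := TA (Dp V j) W.A)
              (tl_cl V lam W α x).1, W.cw_nat _ W.A.d fun _ _ => W.d_wt]
      deg := fun m z hz => tg_ind (Q := fun z => ta V lam W α z ∈ tg (Dp V j) W.A m)
        (by rw [map_zero]; exact zero_mem _)
        (fun x a ha => by
          have h := (TA (Dp V j) W.A).mul_gr _ _ _ _ (tl_cl V lam W α x).1 (W.cw_gr (cD V α) ha)
          rwa [zero_add] at h)
        (fun x y hx hy => by rw [map_add]; exact add_mem hx hy) hz }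
  τ_id i := AlgHom.congr_fun (ta_id V lam W i)
  τ_comp α β := AlgHom.congr_fun (ta_comp V lam W α β)

theorem fz_gr (i : I) (z : D.C i) : fz V W i z ∈ tg (Dp V i) W.A 0 := tmul_tg _ W.A.one_gr

theorem d_fz (i : I) (z : D.C i) : (TA (Dp V i) W.A).d (fz V W i z) = 0 :=
  (congrArg (fo V i z ⊗ₜ[ℂ] ·) W.A.d_one).trans (tmul_zero _ _)

/-- The element `F = q - f`. -/
def chF (i : I) : CZ (TA (Dp V i) W.A) where
  x := 1 ⊗ₜ[ℂ] W.q - fz V W i (D.f i)
  gr := sub_mem (tmul_tg _ W.q_gr) (fz_gr V W i _)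
  d := by rw [map_sub, d_fz, LinearMap.lTensor_tmul, W.dq, tmul_zero, sub_zero]

theorem chF_x (i : I) : (chF V W i).x = 1 ⊗ₜ[ℂ] W.q - fz V W i (D.f i) := rfl

/-- The elements `F` and the units `c²`. -/
def chT : TD (Ch V lam W) where
  F := chF V W
  u {_ j} α := Units.map (fz V W j).toMonoidHom (cu α ^ 2)
  gr _ := fz_gr V W _ _
  gr' _ := fz_gr V W _ _
  d _ := d_fz V W _ _
  u_id i := by rw [cu_id, one_pow, map_one]
  u_comp {i j k} α β := by
    change fz V W k (D.c (α ≫ β) ^ 2) = fz V W k (D.c β ^ 2) * ta V lam W β (fz V W j (D.c α ^ 2))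
    rw [ta_fz, ← map_mul, D.c_comp, map_pow (D.κ β), mul_pow, mul_comm]
  τ_F {i j} α := by
    change ta V lam W α (1 ⊗ₜ[ℂ] W.q - fz V W i (D.f i)) =
      (1 ⊗ₜ[ℂ] W.q - fz V W j (D.f j)) * fz V W j (D.c α ^ 2)
    rw [map_sub, ta_one V lam W α W.q_wt, ta_fz, D.κ_f, sub_mul, ← map_mul, mul_comm (D.f j),
      fz_apply V W j (D.c α ^ 2), Algebra.TensorProduct.tmul_mul_tmul, one_mul, mul_one]
    rfl

theorem chT_F (i : I) : (chT V lam W).F i = chF V W i := rfl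

theorem chT_u {i j : I} (α : i ⟶ j) : ((chT V lam W).u α).1 = fz V W j (D.c α ^ 2) := rfl

theorem chF_fz (i : I) (z : D.C i) : (chF V W i).x * fz V W i z = fz V W i z * (chF V W i).x := by
  rw [chF_x, sub_mul, mul_sub, ← map_mul, ← map_mul, mul_comm z, ← map_one (fo V i), fz_comm]

/-- The diagram of twisted matrix algebras. -/
abbrev TW : DD I := Tw (chT V lam W)

/-- The base of the chart algebras. -/
def chB (xd : XD D) : Base (Ch xd.vfd lam W) xd.rd :=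
  ⟨fz xd.vfd W, fz_gr xd.vfd W, d_fz xd.vfd W, ta_fz xd.vfd lam W⟩

theorem chB_ι (xd : XD D) (i : I) (z : D.C i) : (chB lam W xd).ι i z = fz xd.vfd W i z := rfl

/-- The base of the twisted matrix algebras. -/
def twB (xd : XD D) : Base (TW xd.vfd lam W) xd.rd :=
  (chB lam W xd).tw (chT xd.vfd lam W) (chF_fz xd.vfd W) fun {_ j} α z => by
    rw [chT_u, chB_ι, ← map_mul, ← map_mul, mul_comm]

theorem twB_ι (xd : XD D) (i : I) (z : D.C i) :
    (twB lam W xd).ι i z = TwA.sc (chF xd.vfd W i) (fz xd.vfd W i z) := rfl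

end

end Vale.Agent.P286E48
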